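import Vale.Agent.P280.T.Tools

/-! Tools: slopes, vertices, finiteness of weights, lowest fixed points, tangent vectors. -/

namespace Vale.Agent.P280.T

open DirectSum

section slope
variable {M Γ : Type} [AddCommGroup M] [AddCommGroup Γ]

/-- `(d, m) ↦ w m - d γ`. -/
def slopeHom (w : M →+ Γ) (γ : Γ) : ℕ × M →+ Γ where
  toFun i := w i.2 - i.1 • γ
  map_zero' := by simp
  map_add' i j := by
    simp only [Prod.fst_add, Prod.snd_add, map_add, add_smul]
    abel

theorem slopeHom_apply (w : M →+ Γ) (γ : Γ) (d : ℕ) (m : M) :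
    slopeHom w γ (d, m) = w m - d • γ := rfl

/-- The twisted weight at a fixed point with character `ν`. -/
abbrev tw (ν : M) : ℕ × M →+ M := slopeHom (AddMonoidHom.id M) ν

theorem tw_apply (ν : M) (d : ℕ) (m : M) : tw ν (d, m) = m - d • ν := rfl

end slope

section
variable {M : Type} [AddCommGroup M] [DecidableEq M]
variable {R : Type} [CommRing R] [Algebra ℂ R] {𝒜 : ℕ × M → Submodule ℂ R} [GradedAlgebra 𝒜]

theorem IsProd.exists_last {d : ℕ} {m : M} {x : R} (hx : IsProd 𝒜 d m x) (hd : 0 < d) :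
    ∃ w : M, ∃ g ∈ 𝒜 (1, w), ∃ y : R, x = y * g := by
  cases hx with
  | one => exact absurd hd (lt_irrefl 0)
  | mul hx hg => exact ⟨_, _, hg, _, rfl⟩

theorem isVertex_iff (hgen : Algebra.adjoin ℂ {h : R | ∃ m : M, h ∈ 𝒜 (1, m)} = ⊤)
    (p : R →ₐ[ℂ] ℂ) : IsVertex 𝒜 p ↔ ∀ m, ∀ h ∈ 𝒜 (1, m), p h = 0 := by
  constructor
  · intro hp m h hh
    exact hp 1 m one_pos h hh
  · intro hp d m hd h hh
    have h1 := mem_span_isProd hgen hh
    have h2 : Submodule.span ℂ {x | IsProd 𝒜 d m x} ≤ LinearMap.ker p.toLinearMap := by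
      apply Submodule.span_le.2
      intro x hx
      obtain ⟨w, g, hg, y, rfl⟩ := IsProd.exists_last hx hd
      have : p (y * g) = 0 := by rw [map_mul, hp w g hg, mul_zero]
      exact this
    exact h2 h1

theorem not_isVertex_iff (hgen : Algebra.adjoin ℂ {h : R | ∃ m : M, h ∈ 𝒜 (1, m)} = ⊤)
    (p : R →ₐ[ℂ] ℂ) : ¬ IsVertex 𝒜 p ↔ ∃ m, ∃ h ∈ 𝒜 (1, m), p h ≠ 0 := by
  rw [isVertex_iff hgen]
  push Not
  rfl

/-- At a fixed non-vertex some element of degree one and weight `μ` does not vanish. -/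
theorem exists_deg_one_ne (hgen : Algebra.adjoin ℂ {h : R | ∃ m : M, h ∈ 𝒜 (1, m)} = ⊤)
    {p : R →ₐ[ℂ] ℂ} {μ : M} (hp : ¬ IsVertex 𝒜 p) (hf : IsFixed 𝒜 p μ) :
    ∃ f ∈ 𝒜 (1, μ), p f ≠ 0 := by
  obtain ⟨m, h, hh, hne⟩ := (not_isVertex_iff hgen p).1 hp
  have := hf 1 m h hh hne
  rw [one_smul] at this
  subst this
  exact ⟨h, hh, hne⟩

theorem zero_of_deg_zero (hX : IsTorusManifold 𝒜) {m : M} (hm : m ≠ 0) {h : R}
    (hh : h ∈ 𝒜 (0, m)) : h = 0 := by
  obtain ⟨c, hc⟩ := hX.zero m h hh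
  have h1 : h ∈ 𝒜 (0, 0) := by
    rw [hc, Algebra.algebraMap_eq_smul_one]
    exact Submodule.smul_mem _ _ SetLike.GradedOne.one_mem
  have h2 := DirectSum.decompose_of_mem_same 𝒜 hh
  have h3 := DirectSum.decompose_of_mem_ne 𝒜 h1 (j := (0, m)) (by
    intro h
    apply hm
    exact (congrArg Prod.snd h).symm)
  rw [← h2, h3]

/-- Only finitely many weights occur in degree one. -/
theorem finite_weights (hX : IsTorusManifold 𝒜) : {m : M | ∃ h ∈ 𝒜 (1, m), h ≠ 0}.Finite := by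
  have := hX.finiteType
  have : IsNoetherianRing R := Algebra.FiniteType.isNoetherianRing ℂ R
  let S : Set R := {h : R | ∃ m : M, h ∈ 𝒜 (1, m)}
  have hfg : (Submodule.span R S).FG := IsNoetherian.noetherian _
  obtain ⟨s, hs, hspan⟩ := Submodule.fg_span_iff_fg_span_finset_subset S |>.1 hfg
  have hw : ∀ g : s, ∃ m : M, (g : R) ∈ 𝒜 (1, m) := fun g => hs g.2
  choose w hw using hw
  apply Set.Finite.subset (Set.finite_range w)
  rintro m ⟨h, hh, hne⟩
  by_contra hnot
  apply hne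
  have h1 : h ∈ Submodule.span R (s : Set R) := by
    rw [← hspan]
    exact Submodule.subset_span ⟨m, hh⟩
  have h2 : ∀ x ∈ Submodule.span R (s : Set R), ∀ a : R,
      ((DirectSum.decompose 𝒜 (a * x)) (1, m) : R) = 0 := by
    intro x hx
    induction hx using Submodule.span_induction with
    | mem x hx =>
      intro a
      have hm : m - w ⟨x, hx⟩ ≠ 0 := by
        intro h
        apply hnot
        exact ⟨⟨x, hx⟩, (sub_eq_zero.1 h).symm⟩
      have h4 : ((DirectSum.decompose 𝒜 (a * x)) ((0, m - w ⟨x, hx⟩) + (1, w ⟨x, hx⟩)) : R) =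
          (DirectSum.decompose 𝒜 a) (0, m - w ⟨x, hx⟩) * x :=
        DirectSum.coe_decompose_mul_add_of_right_mem 𝒜 (hw ⟨x, hx⟩)
      have h5 : ((0, m - w ⟨x, hx⟩) + (1, w ⟨x, hx⟩) : ℕ × M) = (1, m) := by
        ext <;> simp
      rw [h5] at h4
      rw [h4, zero_of_deg_zero hX hm ((DirectSum.decompose 𝒜 a) (0, m - w ⟨x, hx⟩)).2, zero_mul]
    | zero =>
      intro a
      rw [mul_zero, DirectSum.decompose_zero]
      rfl
    | add x y _ _ hx hy =>
      intro a
      rw [mul_add, DirectSum.decompose_add, DirectSum.add_apply, Submodule.coe_add, hx, hy,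
        add_zero]
    | smul b x _ hx =>
      intro a
      rw [smul_eq_mul, ← mul_assoc]
      exact hx (a * b)
  have h3 := h2 h h1 1
  rwa [one_mul, DirectSum.decompose_of_mem_same 𝒜 hh] at h3

/-- The lowest fixed points of a closed set which is stable under the torus. -/
theorem exists_lowest (hX : IsTorusManifold 𝒜) {Γ : Type} [AddCommGroup Γ] [LinearOrder Γ]
    [IsOrderedAddMonoid Γ] (w : M →+ Γ) {I : Ideal R}
    (hI : ∀ x ∈ I, ∀ i, ((DirectSum.decompose 𝒜 x) i : R) ∈ I)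
    (hne : ∃ z : R →ₐ[ℂ] ℂ, (∀ x ∈ I, z x = 0) ∧ ¬ IsVertex 𝒜 z) :
    ∃ (γ : Γ) (x : R →ₐ[ℂ] ℂ), ¬ IsVertex 𝒜 x ∧ (∀ h ∈ I, x h = 0) ∧
      (∀ d m, ∀ h ∈ 𝒜 (d, m), x h ≠ 0 → w m = d • γ) ∧
      (∀ d m, ∀ h ∈ 𝒜 (d, m), h ∉ I.radical → d • γ ≤ w m) ∧
      (∃ m, w m = γ ∧ ∃ h ∈ 𝒜 (1, m), x h ≠ 0) := by
  have := hX.finiteType
  obtain ⟨z0, hz0, hv⟩ := hne
  obtain ⟨m1, h1, hh1, hne1⟩ := (not_isVertex_iff hX.gen z0).1 hv
  have hz0' : ∀ x ∈ I.radical, z0 x = 0 := by
    intro x hx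
    obtain ⟨n, hn⟩ := hx
    have h2 := hz0 _ hn
    rw [map_pow] at h2
    exact eq_zero_of_pow_eq_zero h2
  let S : Set M := {m : M | ∃ h ∈ 𝒜 (1, m), h ∉ I.radical}
  have hSfin : S.Finite := by
    apply (finite_weights hX).subset
    rintro m ⟨h, hh, hI'⟩
    exact ⟨h, hh, fun h0 => hI' (h0 ▸ Ideal.zero_mem _)⟩
  have hSne : S.Nonempty := ⟨m1, h1, hh1, fun h => hne1 (hz0' _ h)⟩
  obtain ⟨m0, ⟨h0, hh0, hI0⟩, hmin⟩ := hSfin.exists_minimalFor w S hSne
  have hmin' : ∀ m, ∀ h ∈ 𝒜 (1, m), h ∉ I.radical → w m0 ≤ w m := by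
    intro m h hh hI'
    rcases le_total (w m0) (w m) with hle | hle
    · exact hle
    · exact hmin ⟨h, hh, hI'⟩ hle
  have hslope := slope_le hX.gen w (w m0) I.radical hmin'
  obtain ⟨z, hz, hz1⟩ := exists_point hI0
  have hz' : ∀ x ∈ I.radical, z x = 0 := by
    intro x hx
    obtain ⟨n, hn⟩ := hx
    have h2 := hz _ hn
    rw [map_pow] at h2
    exact eq_zero_of_pow_eq_zero h2
  obtain ⟨y, hy1, hy2⟩ := exists_limit 𝒜 z (slopeHom w (w m0)) (by
    rintro ⟨d, m⟩ h hh hne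
    rw [slopeHom_apply, sub_nonneg]
    exact hslope d m h hh (fun h' => hne (hz' h h')))
  have hyh0 : y h0 ≠ 0 := by
    rw [hy1 (1, m0) h0 hh0 (by rw [slopeHom_apply, one_smul, sub_self])]
    exact hz1
  refine ⟨w m0, y, ?_, ?_, ?_, hslope, ⟨m0, rfl, h0, hh0, hyh0⟩⟩
  · rw [not_isVertex_iff hX.gen]
    exact ⟨m0, h0, hh0, hyh0⟩
  · intro x hx
    classical
    have h2 : x = ∑ i ∈ (DirectSum.decompose 𝒜 x).support,
        ((DirectSum.decompose 𝒜 x) i : R) := (DirectSum.sum_support_decompose 𝒜 x).symm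
    rw [h2, map_sum]
    apply Finset.sum_eq_zero
    intro i _
    by_cases hi : slopeHom w (w m0) i = 0
    · rw [hy1 i _ ((DirectSum.decompose 𝒜 x) i).2 hi]
      exact hz _ (hI x hx i)
    · exact hy2 i _ ((DirectSum.decompose 𝒜 x) i).2 hi
  · intro d m h hh hne
    by_contra hw
    apply hne
    apply hy2 (d, m) h hh
    rw [slopeHom_apply]
    intro h
    exact hw (sub_eq_zero.1 h)

omit [DecidableEq M] in
/-- Derivations along a point from linear functionals vanishing on `1` and on `𝔪 ^ 2`. -/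
theorem isTangent_of_vanish {q : R →ₐ[ℂ] ℂ} {l : R →ₗ[ℂ] ℂ} (h1 : l 1 = 0)
    (h2 : ∀ x ∈ (RingHom.ker q) ^ 2, l x = 0) : IsTangent q l := by
  intro a b
  have hC : ∀ c : ℂ, l (algebraMap ℂ R c) = 0 := by
    intro c
    rw [Algebra.algebraMap_eq_smul_one, map_smul, h1, smul_zero]
  have ha : a - algebraMap ℂ R (q a) ∈ RingHom.ker q := by
    rw [RingHom.mem_ker]
    simp
  have hb : b - algebraMap ℂ R (q b) ∈ RingHom.ker q := by
    rw [RingHom.mem_ker]
    simp
  have h3 := h2 _ (by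
    rw [pow_two]
    exact Ideal.mul_mem_mul ha hb)
  have h4 : (a - algebraMap ℂ R (q a)) * (b - algebraMap ℂ R (q b)) =
      a * b - (q b) • a - (q a) • b + algebraMap ℂ R (q a * q b) := by
    rw [Algebra.smul_def, Algebra.smul_def, map_mul]
    ring
  rw [h4, map_add, map_sub, map_sub, map_smul, map_smul, hC] at h3
  simp only [smul_eq_mul, add_zero] at h3
  linear_combination h3

omit [DecidableEq M] in
/-- A linear functional which separates an element of `𝔪` outside `𝔪 ^ 2`. -/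
theorem exists_functional {q : R →ₐ[ℂ] ℂ} {u : R} (hq : q u = 0)
    (hu2 : u ∉ (RingHom.ker q) ^ 2) :
    ∃ l : R →ₗ[ℂ] ℂ, IsTangent q l ∧ l u ≠ 0 := by
  let W : Submodule ℂ R := Submodule.span ℂ {(1 : R)} ⊔ ((RingHom.ker q) ^ 2).restrictScalars ℂ
  have hW : u ∉ W := by
    intro hu
    obtain ⟨a, ha, b, hb, hab⟩ := Submodule.mem_sup.1 hu
    obtain ⟨c, rfl⟩ := Submodule.mem_span_singleton.1 ha
    have hb' : b ∈ RingHom.ker q := Ideal.pow_le_self (two_ne_zero) hb
    have h1 : q u = c := by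
      rw [← hab, map_add, (RingHom.mem_ker).1 hb']
      simp
    rw [hq] at h1
    apply hu2
    rw [← hab, ← h1, zero_smul, zero_add]
    exact hb
  obtain ⟨l, hl, hlW⟩ := Submodule.exists_dual_map_eq_bot_of_notMem hW inferInstance
  have hl0 : ∀ x ∈ W, l x = 0 := by
    intro x hx
    have : l x ∈ W.map l := Submodule.mem_map_of_mem hx
    rw [hlW] at this
    exact (Submodule.mem_bot ℂ).1 this
  refine ⟨l, isTangent_of_vanish ?_ ?_, hl⟩
  · exact hl0 _ (Submodule.mem_sup_left (Submodule.mem_span_singleton_self _))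
  · intro x hx
    exact hl0 _ (Submodule.mem_sup_right hx)

theorem fixed_coarse {q : R →ₐ[ℂ] ℂ} {ν χ : M} (hf : IsFixed 𝒜 q ν) {u : R}
    (hu : u ∈ coarse 𝒜 (tw ν) χ) (hχ : χ ≠ 0) : q u = 0 := by
  refine coarse_induction (P := fun u => q u = 0) (map_zero q) ?_ ?_ hu
  · intro a b ha hb
    rw [map_add, ha, hb, add_zero]
  · rintro ⟨d, m⟩ hi h hh
    by_contra hne
    apply hχ
    rw [← hi, tw_apply, hf d m h hh hne, sub_self]

/-- The component of weight `χ` of a tangent vector at a fixed point. -/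
theorem exists_component {q : R →ₐ[ℂ] ℂ} {ν : M} (hf : IsFixed 𝒜 q ν) {l : R →ₗ[ℂ] ℂ}
    (hl : IsTangent q l) (χ : M) :
    ∃ v : R →ₗ[ℂ] ℂ, IsTangent q v ∧ HasWeight 𝒜 ν χ v ∧
      ∀ u ∈ coarse 𝒜 (tw ν) χ, v u = l u := by
  let π : R →ₗ[ℂ] R := GradedAlgebra.proj (coarse 𝒜 (tw ν)) χ
  have hπ1 : ∀ u ∈ coarse 𝒜 (tw ν) χ, π u = u := by
    intro u hu
    exact DirectSum.decompose_of_mem_same _ hu
  have hπ2 : ∀ k, k ≠ χ → ∀ u ∈ coarse 𝒜 (tw ν) k, π u = 0 := by
    intro k hk u hu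
    exact DirectSum.decompose_of_mem_ne _ hu hk
  refine ⟨l.comp π, ?_, ?_, ?_⟩
  · have key : ∀ i j, ∀ a ∈ coarse 𝒜 (tw ν) i, ∀ b ∈ coarse 𝒜 (tw ν) j,
        (l.comp π) (a * b) = q a * (l.comp π) b + q b * (l.comp π) a := by
      intro i j a ha b hb
      have hab : a * b ∈ coarse 𝒜 (tw ν) (i + j) := SetLike.mul_mem_graded ha hb
      simp only [LinearMap.comp_apply]
      by_cases hij : i + j = χ
      · rw [hπ1 _ (hij ▸ hab), hl a b]
        by_cases hi : i = 0
        · subst hi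
          rw [zero_add] at hij
          subst hij
          rw [hπ1 b hb]
          by_cases hj : j = 0
          · subst hj
            rw [hπ1 a ha]
          · rw [fixed_coarse hf hb hj, zero_mul, zero_mul]
        · rw [fixed_coarse hf ha hi, zero_mul, zero_mul, zero_add, zero_add]
          by_cases hj : j = 0
          · subst hj
            rw [add_zero] at hij
            subst hij
            rw [hπ1 a ha]
          · rw [fixed_coarse hf hb hj, zero_mul, zero_mul]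
      · rw [hπ2 _ hij _ hab, map_zero]
        by_cases hi : i = 0
        · subst hi
          rw [zero_add] at hij
          rw [hπ2 _ hij b hb, map_zero, mul_zero, zero_add]
          by_cases hj : j = 0
          · subst hj
            rw [hπ2 _ hij a ha, map_zero, mul_zero]
          · rw [fixed_coarse hf hb hj, zero_mul]
        · rw [fixed_coarse hf ha hi, zero_mul, zero_add]
          by_cases hj : j = 0
          · subst hj
            rw [add_zero] at hij
            rw [hπ2 _ hij a ha, map_zero, mul_zero]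
          · rw [fixed_coarse hf hb hj, zero_mul]
    intro a b
    have h1 : ∀ j, ∀ b ∈ coarse 𝒜 (tw ν) j,
        (l.comp π).comp (LinearMap.mulRight ℂ b) =
          (l.comp π) b • q.toLinearMap + q b • (l.comp π) := by
      intro j b hb
      apply linearMap_ext_graded (coarse 𝒜 (tw ν))
      intro i a ha
      have := key i j a ha b hb
      simp only [LinearMap.comp_apply, LinearMap.mulRight_apply, LinearMap.add_apply,
        LinearMap.smul_apply, smul_eq_mul, AlgHom.toLinearMap_apply] at this ⊢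
      rw [this]
      ring
    have h2 : (l.comp π).comp (LinearMap.mulLeft ℂ a) =
        q a • (l.comp π) + (l.comp π) a • q.toLinearMap := by
      apply linearMap_ext_graded (coarse 𝒜 (tw ν))
      intro j b hb
      have := LinearMap.congr_fun (h1 j b hb) a
      simp only [LinearMap.comp_apply, LinearMap.mulRight_apply, LinearMap.add_apply,
        LinearMap.smul_apply, smul_eq_mul, AlgHom.toLinearMap_apply,
        LinearMap.mulLeft_apply] at this ⊢
      rw [this]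
      ring
    have h3 := LinearMap.congr_fun h2 b
    simp only [LinearMap.comp_apply, LinearMap.add_apply,
        LinearMap.smul_apply, smul_eq_mul, AlgHom.toLinearMap_apply,
        LinearMap.mulLeft_apply] at h3 ⊢
    rw [h3]
    ring
  · intro d m h hh hne
    by_contra hm
    apply hne
    have h1 : h ∈ coarse 𝒜 (tw ν) (m - d • ν) := mem_coarse hh (tw_apply ν d m)
    rw [LinearMap.comp_apply, hπ2 _ (fun h' => hm (by rw [← h']; abel)) h h1, map_zero]
  · intro u hu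
    rw [LinearMap.comp_apply, hπ1 u hu]

/-- A homogeneous element of `𝔪` outside `𝔪 ^ 2` is detected by a tangent vector of its
weight. -/
theorem exists_tangent {q : R →ₐ[ℂ] ℂ} {ν χ : M}
    (hf : IsFixed 𝒜 q ν) {u : R} (hu : u ∈ coarse 𝒜 (tw ν) χ) (hq : q u = 0)
    (hu2 : u ∉ (RingHom.ker q) ^ 2) :
    ∃ v : R →ₗ[ℂ] ℂ, IsTangent q v ∧ HasWeight 𝒜 ν χ v ∧ v u ≠ 0 := by
  obtain ⟨l, hl, hlu⟩ := exists_functional hq hu2
  obtain ⟨v, hv, hw, hvu⟩ := exists_component hf hl χ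
  exact ⟨v, hv, hw, by rw [hvu u hu]; exact hlu⟩

/-- A nonzero tangent vector of weight `χ ≠ 0` makes `χ` a tangent weight. -/
theorem tangentWeight_of_ne {q : R →ₐ[ℂ] ℂ} {ν χ : M} (hf : IsFixed 𝒜 q ν) (hχ : χ ≠ 0)
    {v : R →ₗ[ℂ] ℂ} (hv : IsTangent q v) (hw : HasWeight 𝒜 ν χ v) (hne : v ≠ 0) :
    TangentWeight 𝒜 q ν χ := by
  refine ⟨v, hv, hw, ?_⟩
  intro c
  by_contra hcon
  push Not at hcon
  apply hne
  apply linearMap_ext_graded 𝒜
  rintro ⟨d, m⟩ h hh
  rw [LinearMap.zero_apply]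
  by_contra h0
  have h1 := hw d m h hh h0
  have h2 := hcon d m h hh
  have h3 : q h ≠ 0 := by
    intro h3
    rw [h2, h3, mul_zero] at h0
    exact h0 rfl
  have h4 := hf d m h hh h3
  apply hχ
  rw [h4] at h1
  simpa using h1

end

end Vale.Agent.P280.T
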