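import Vale.Agent.P280.T.Coarse

/-! Tools: homomorphisms from graded algebras, products of elements of degree one, limits,
Nullstellensatz. -/

namespace Vale.Agent.P280.T

open DirectSum

section hom
variable {ι R B : Type} [AddMonoid ι] [DecidableEq ι] [CommRing R] [Algebra ℂ R]
variable [CommRing B] [Algebra ℂ B]

/-- Algebra homomorphisms from a graded algebra, given by their homogeneous parts. -/
theorem exists_algHom (𝒜 : ι → Submodule ℂ R) [GradedAlgebra 𝒜] (F : ι → R →ₗ[ℂ] B)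
    (h1 : F 0 1 = 1)
    (hmul : ∀ i j, ∀ a ∈ 𝒜 i, ∀ b ∈ 𝒜 j, F (i + j) (a * b) = F i a * F j b) :
    ∃ φ : R →ₐ[ℂ] B, ∀ i, ∀ a ∈ 𝒜 i, φ a = F i a := by
  let G : (⨁ i, 𝒜 i) →ₐ[ℂ] B :=
    DirectSum.toAlgebra ℂ (fun i => 𝒜 i) (fun i => (F i).comp (𝒜 i).subtype) h1
      (fun a b => hmul _ _ a a.2 b b.2)
  refine ⟨G.comp (DirectSum.decomposeAlgEquiv 𝒜 : R →ₐ[ℂ] ⨁ i, 𝒜 i), ?_⟩
  intro i a ha
  have h2 : (G.comp (DirectSum.decomposeAlgEquiv 𝒜 : R →ₐ[ℂ] ⨁ i, 𝒜 i)) a =
      G (DirectSum.decompose 𝒜 a) := rfl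
  rw [h2, DirectSum.decompose_of_mem _ ha]
  exact DirectSum.toAddMonoid_of (fun i => ((F i).comp (𝒜 i).subtype).toAddMonoidHom) i ⟨a, ha⟩

/-- Linear maps out of a graded algebra are determined by homogeneous elements. -/
theorem linearMap_ext_graded (𝒜 : ι → Submodule ℂ R) [GradedAlgebra 𝒜] {F G : R →ₗ[ℂ] B}
    (h : ∀ i, ∀ a ∈ 𝒜 i, F a = G a) : F = G := by
  apply LinearMap.ext
  intro x
  induction x using DirectSum.Decomposition.inductionOn 𝒜 with
  | zero => simp
  | homogeneous a => exact h _ a a.2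
  | add a b ha hb => rw [map_add, map_add, ha, hb]

theorem algHom_ext_graded (𝒜 : ι → Submodule ℂ R) [GradedAlgebra 𝒜] {F G : R →ₐ[ℂ] B}
    (h : ∀ i, ∀ a ∈ 𝒜 i, F a = G a) : F = G := by
  have := linearMap_ext_graded 𝒜 (F := F.toLinearMap) (G := G.toLinearMap) h
  apply AlgHom.ext
  intro x
  exact LinearMap.congr_fun this x

/-- A property holds for all linear combinations if it holds for homogeneous elements: the
component of an element. -/
theorem eq_component {𝒜 : ι → Submodule ℂ R} [GradedAlgebra 𝒜] {i : ι} {a : R} (ha : a ∈ 𝒜 i) :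
    ((DirectSum.decompose 𝒜 a) i : R) = a := DirectSum.decompose_of_mem_same 𝒜 ha

theorem component_ne {𝒜 : ι → Submodule ℂ R} [GradedAlgebra 𝒜] {i j : ι} {a : R} (ha : a ∈ 𝒜 i)
    (hij : i ≠ j) : ((DirectSum.decompose 𝒜 a) j : R) = 0 :=
  DirectSum.decompose_of_mem_ne 𝒜 ha hij

/-- The limit of the point `z` under the one-parameter group `w`. -/
theorem exists_limit (𝒜 : ι → Submodule ℂ R) [GradedAlgebra 𝒜] {Γ : Type} [AddCommGroup Γ]
    [LinearOrder Γ] [IsOrderedAddMonoid Γ] (z : R →ₐ[ℂ] ℂ) (w : ι →+ Γ)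
    (hw : ∀ i, ∀ h ∈ 𝒜 i, z h ≠ 0 → 0 ≤ w i) :
    ∃ y : R →ₐ[ℂ] ℂ, (∀ i, ∀ h ∈ 𝒜 i, w i = 0 → y h = z h) ∧
      (∀ i, ∀ h ∈ 𝒜 i, w i ≠ 0 → y h = 0) := by
  obtain ⟨y, hy⟩ := exists_algHom 𝒜 (fun i => if w i = 0 then z.toLinearMap else 0)
    (by simp)
    (by
      intro i j a ha b hb
      by_cases hi : w i = 0
      · by_cases hj : w j = 0
        · simp [hi, hj]
        · simp [hi, hj]
      · by_cases hj : w j = 0
        · simp [hi, hj]
        · simp only [map_add, hi, hj, if_false, LinearMap.zero_apply, mul_zero]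
          split_ifs with hij
          · by_contra hne
            have hne' : z a * z b ≠ 0 := by
              intro h0
              apply hne
              simp [h0]
            have h1 := hw i a ha (left_ne_zero_of_mul hne')
            have h2 := hw j b hb (right_ne_zero_of_mul hne')
            have h3 : w i = 0 := by
              apply le_antisymm _ h1
              rw [← hij]
              exact le_add_of_nonneg_right h2
            exact hi h3
          · simp)
  refine ⟨y, ?_, ?_⟩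
  · intro i h hh hi
    rw [hy i h hh]
    simp [hi]
  · intro i h hh hi
    rw [hy i h hh]
    simp [hi]

end hom

section prods
variable {M : Type} [AddCommGroup M] [DecidableEq M]
variable {R : Type} [CommRing R] [Algebra ℂ R]

/-- `x` is a product of `d` homogeneous elements of degree one, with sum of weights `m`. -/
inductive IsProd (𝒜 : ℕ × M → Submodule ℂ R) : ℕ → M → R → Prop
  | one : IsProd 𝒜 0 0 1
  | mul {d : ℕ} {m w : M} {x g : R} (hx : IsProd 𝒜 d m x) (hg : g ∈ 𝒜 (1, w)) :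
      IsProd 𝒜 (d + 1) (m + w) (x * g)

theorem IsProd.mul' {𝒜 : ℕ × M → Submodule ℂ R} {d d' : ℕ} {m m' : M} {x y : R}
    (hx : IsProd 𝒜 d m x) (hy : IsProd 𝒜 d' m' y) : IsProd 𝒜 (d + d') (m + m') (x * y) := by
  induction hy with
  | one => simpa using hx
  | mul hy hg ih =>
    have := ih.mul hg
    rw [← mul_assoc, ← add_assoc, ← add_assoc]
    exact this

theorem IsProd.mem {𝒜 : ℕ × M → Submodule ℂ R} [GradedAlgebra 𝒜] {d : ℕ} {m : M} {x : R}
    (hx : IsProd 𝒜 d m x) : x ∈ 𝒜 (d, m) := by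
  induction hx with
  | one => exact SetLike.GradedOne.one_mem
  | mul hx hg ih => exact SetLike.mul_mem_graded ih hg

theorem mem_span_isProd {𝒜 : ℕ × M → Submodule ℂ R} [GradedAlgebra 𝒜]
    (hgen : Algebra.adjoin ℂ {h : R | ∃ m : M, h ∈ 𝒜 (1, m)} = ⊤) {d : ℕ} {m : M} {h : R}
    (hh : h ∈ 𝒜 (d, m)) : h ∈ Submodule.span ℂ {x | IsProd 𝒜 d m x} := by
  let S : ℕ × M → Submodule ℂ R := fun i => Submodule.span ℂ {x | IsProd 𝒜 i.1 i.2 x}
  have hSmul : ∀ i j, S i * S j ≤ S (i + j) := by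
    intro i j
    rw [Submodule.span_mul_span]
    apply Submodule.span_le.2
    rintro _ ⟨x, hx, y, hy, rfl⟩
    exact Submodule.subset_span (IsProd.mul' hx hy)
  have hS : ∀ i, S i ≤ 𝒜 i := by
    intro i
    apply Submodule.span_le.2
    intro x hx
    exact IsProd.mem hx
  have hall : ∀ x : R, x ∈ ⨆ i, S i := by
    intro x
    have hx : x ∈ Algebra.adjoin ℂ {h : R | ∃ m : M, h ∈ 𝒜 (1, m)} := by
      rw [hgen]; trivial
    induction hx using Algebra.adjoin_induction with
    | mem x hx =>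
      obtain ⟨m, hm⟩ := hx
      apply Submodule.mem_iSup_of_mem (1, m)
      apply Submodule.subset_span
      have := (IsProd.one (𝒜 := 𝒜)).mul hm
      simpa using this
    | algebraMap r =>
      apply Submodule.mem_iSup_of_mem (0, 0)
      rw [Algebra.algebraMap_eq_smul_one]
      exact Submodule.smul_mem _ _ (Submodule.subset_span IsProd.one)
    | add x y _ _ hx hy => exact Submodule.add_mem _ hx hy
    | mul x y _ _ hx hy =>
      have h1 : x * y ∈ (⨆ i, S i) * (⨆ i, S i) := Submodule.mul_mem_mul hx hy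
      rw [Submodule.iSup_mul] at h1
      refine (iSup_le ?_ : (⨆ i, S i * ⨆ j, S j) ≤ ⨆ i, S i) h1
      intro i
      rw [Submodule.mul_iSup]
      apply iSup_le
      intro j
      exact (hSmul i j).trans (le_iSup S (i + j))
  have h2 := hall h
  -- project
  have h3 : ∀ x ∈ ⨆ i, S i, ((DirectSum.decompose 𝒜 x) (d, m) : R) ∈ S (d, m) := by
    intro x hx
    refine Submodule.iSup_induction (motive := fun x =>
      ((DirectSum.decompose 𝒜 x) (d, m) : R) ∈ S (d, m)) S hx ?_ ?_ ?_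
    · intro i x hx
      by_cases hi : i = (d, m)
      · subst hi
        rw [DirectSum.decompose_of_mem_same 𝒜 (hS _ hx)]
        exact hx
      · rw [DirectSum.decompose_of_mem_ne 𝒜 (hS _ hx) hi]
        exact Submodule.zero_mem _
    · rw [DirectSum.decompose_zero]
      exact Submodule.zero_mem _
    · intro x y hx hy
      rw [DirectSum.decompose_add]
      exact Submodule.add_mem _ hx hy
  have h4 := h3 h h2
  rwa [DirectSum.decompose_of_mem_same 𝒜 hh] at h4

/-- A lower bound for the slopes of the elements of degree one outside an ideal holds for all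
elements outside it. -/
theorem slope_le {𝒜 : ℕ × M → Submodule ℂ R} [GradedAlgebra 𝒜]
    (hgen : Algebra.adjoin ℂ {h : R | ∃ m : M, h ∈ 𝒜 (1, m)} = ⊤) {Γ : Type} [AddCommGroup Γ]
    [LinearOrder Γ] [IsOrderedAddMonoid Γ] (w : M →+ Γ) (γ : Γ) (I : Ideal R)
    (h1 : ∀ m, ∀ h ∈ 𝒜 (1, m), h ∉ I → γ ≤ w m) :
    ∀ d m, ∀ h ∈ 𝒜 (d, m), h ∉ I → d • γ ≤ w m := by
  have key : ∀ d m x, IsProd 𝒜 d m x → x ∉ I → d • γ ≤ w m := by
    intro d m x hx
    induction hx with
    | one => intro _; simp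
    | @mul d m w' x g hx hg ih =>
      intro hxg
      have hx' : x ∉ I := fun h => hxg (Ideal.mul_mem_right _ _ h)
      have hg' : g ∉ I := fun h => hxg (Ideal.mul_mem_left _ _ h)
      rw [map_add, add_smul, one_smul]
      exact add_le_add (ih hx') (h1 _ _ hg hg')
  intro d m h hh hI
  by_contra hlt
  apply hI
  have h2 := mem_span_isProd hgen hh
  have h3 : Submodule.span ℂ {x | IsProd 𝒜 d m x} ≤ I.restrictScalars ℂ := by
    apply Submodule.span_le.2
    intro x hx
    by_contra hxI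
    exact hlt (key d m x hx hxI)
  exact h3 h2

end prods

section nullst
variable {R : Type} [CommRing R] [Algebra ℂ R]

/-- Nullstellensatz. -/
theorem exists_point [Algebra.FiniteType ℂ R] {I : Ideal R} {g : R} (hg : g ∉ I.radical) :
    ∃ z : R →ₐ[ℂ] ℂ, (∀ x ∈ I, z x = 0) ∧ z g ≠ 0 := by
  haveI : IsJacobsonRing R := isJacobsonRing_of_finiteType (A := ℂ) (B := R)
  have h1 : I.radical = I.jacobson := (Ideal.radical_eq_jacobson I)
  rw [h1, Ideal.jacobson, Ideal.mem_sInf] at hg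
  push_neg at hg
  obtain ⟨P, ⟨hIP, hP⟩, hgP⟩ := hg
  haveI := hP
  letI : Field (R ⧸ P) := Ideal.Quotient.field P
  haveI : Algebra.FiniteType ℂ (R ⧸ P) :=
    Algebra.FiniteType.of_surjective (Ideal.Quotient.mkₐ ℂ P) (Ideal.Quotient.mkₐ_surjective ℂ P)
  haveI : Module.Finite ℂ (R ⧸ P) := finite_of_finite_type_of_isJacobsonRing ℂ (R ⧸ P)
  have hbij : Function.Bijective (algebraMap ℂ (R ⧸ P)) :=
    IsAlgClosed.algebraMap_bijective_of_isIntegral
  let e : ℂ ≃ₐ[ℂ] (R ⧸ P) := AlgEquiv.ofBijective (Algebra.ofId ℂ (R ⧸ P)) hbij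
  refine ⟨(e.symm : (R ⧸ P) →ₐ[ℂ] ℂ).comp (Ideal.Quotient.mkₐ ℂ P), ?_, ?_⟩
  · intro x hx
    have : (Ideal.Quotient.mkₐ ℂ P) x = 0 := Ideal.Quotient.eq_zero_iff_mem.2 (hIP hx)
    rw [AlgHom.comp_apply, this, map_zero]
  · intro h0
    apply hgP
    rw [AlgHom.comp_apply] at h0
    have h2 : (Ideal.Quotient.mkₐ ℂ P) g = 0 := by
      have := congrArg e h0
      simpa using this
    exact Ideal.Quotient.eq_zero_iff_mem.1 h2

end nullst

end Vale.Agent.P280.T
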