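import Vale.Agent.P280.T.Defs

/-! Coarsening of gradings. -/

namespace Vale.Agent.P280.T

open DirectSum

section
variable {ι κ R : Type} [AddMonoid ι] [DecidableEq ι] [AddMonoid κ] [DecidableEq κ]
variable [CommRing R] [Algebra ℂ R]

/-- The coarsening of the grading `𝒜` along `f : ι →+ κ`. -/
def coarse (𝒜 : ι → Submodule ℂ R) (f : ι →+ κ) (k : κ) : Submodule ℂ R :=
  ⨆ i : {i : ι // f i = k}, 𝒜 i

theorem le_coarse (𝒜 : ι → Submodule ℂ R) (f : ι →+ κ) (i : ι) : 𝒜 i ≤ coarse 𝒜 f (f i) :=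
  le_iSup (fun j : {j : ι // f j = f i} => 𝒜 j) ⟨i, rfl⟩

theorem mem_coarse {𝒜 : ι → Submodule ℂ R} {f : ι →+ κ} {i : ι} {k : κ} {h : R}
    (hh : h ∈ 𝒜 i) (hk : f i = k) : h ∈ coarse 𝒜 f k := by
  subst hk
  exact le_coarse 𝒜 f i hh

theorem coarse_induction {𝒜 : ι → Submodule ℂ R} {f : ι →+ κ} {k : κ} {P : R → Prop}
    (h0 : P 0) (hadd : ∀ a b, P a → P b → P (a + b))
    (hmem : ∀ i, f i = k → ∀ h ∈ 𝒜 i, P h) {x : R} (hx : x ∈ coarse 𝒜 f k) : P x := by
  unfold coarse at hx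
  exact Submodule.iSup_induction (motive := P) _ hx (fun i x hx => hmem i.1 i.2 x hx) h0
    (fun a b => hadd a b)

variable (𝒜 : ι → Submodule ℂ R) [GradedAlgebra 𝒜] (f : ι →+ κ)

instance coarseGradedMonoid : SetLike.GradedMonoid (coarse 𝒜 f) where
  one_mem := mem_coarse (SetLike.GradedOne.one_mem) (map_zero f)
  mul_mem := by
    intro k l a b ha hb
    refine coarse_induction (P := fun a => a * b ∈ coarse 𝒜 f (k + l)) ?_ ?_ ?_ ha
    · simp
    · intro x y hx hy
      rw [add_mul]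
      exact Submodule.add_mem _ hx hy
    · intro i hi x hx
      refine coarse_induction (P := fun b => x * b ∈ coarse 𝒜 f (k + l)) ?_ ?_ ?_ hb
      · simp
      · intro x' y hx hy
        rw [mul_add]
        exact Submodule.add_mem _ hx hy
      · intro j hj y hy
        refine mem_coarse (SetLike.mul_mem_graded hx hy) ?_
        rw [map_add, hi, hj]

/-- The map from the fine direct sum to the coarse one. -/
noncomputable def toCoarse : (⨁ i, 𝒜 i) →ₐ[ℂ] ⨁ k, coarse 𝒜 f k :=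
  DirectSum.toAlgebra ℂ (fun i => 𝒜 i)
    (fun i => (DirectSum.lof ℂ κ (fun k => coarse 𝒜 f k) (f i)).comp
      (Submodule.inclusion (le_coarse 𝒜 f i)))
    (by
      have : (DirectSum.of (fun k => coarse 𝒜 f k) (f 0))
          ⟨(1 : R), le_coarse 𝒜 f 0 SetLike.GradedOne.one_mem⟩ = 1 := by
        have h0 : f 0 = 0 := map_zero f
        rw [DirectSum.one_def]
        apply DirectSum.of_eq_of_gradedMonoid_eq
        refine Sigma.subtype_ext ?_ ?_
        · exact h0
        · rfl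
      exact this)
    (by
      intro i j a b
      have : (DirectSum.of (fun k => coarse 𝒜 f k) (f (i + j)))
          ⟨(a : R) * (b : R), le_coarse 𝒜 f (i + j) (SetLike.mul_mem_graded a.2 b.2)⟩ =
          (DirectSum.of (fun k => coarse 𝒜 f k) (f i)) ⟨(a : R), le_coarse 𝒜 f i a.2⟩ *
          (DirectSum.of (fun k => coarse 𝒜 f k) (f j)) ⟨(b : R), le_coarse 𝒜 f j b.2⟩ := by
        rw [DirectSum.of_mul_of]
        apply DirectSum.of_eq_of_gradedMonoid_eq
        refine Sigma.subtype_ext ?_ ?_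
        · exact map_add f i j
        · rfl
      exact this)

theorem toCoarse_of (i : ι) (a : 𝒜 i) :
    toCoarse 𝒜 f (DirectSum.of (fun i => 𝒜 i) i a) =
      DirectSum.of (fun k => coarse 𝒜 f k) (f i) ⟨(a : R), le_coarse 𝒜 f i a.2⟩ := by
  exact DirectSum.toAddMonoid_of (fun i => ((DirectSum.lof ℂ κ (fun k => coarse 𝒜 f k) (f i)).comp
      (Submodule.inclusion (le_coarse 𝒜 f i))).toAddMonoidHom) i a

theorem toCoarse_decompose {i : ι} {h : R} (hh : h ∈ 𝒜 i) :
    toCoarse 𝒜 f (DirectSum.decompose 𝒜 h) =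
      DirectSum.of (fun k => coarse 𝒜 f k) (f i) ⟨h, le_coarse 𝒜 f i hh⟩ := by
  rw [DirectSum.decompose_of_mem _ hh, toCoarse_of]

noncomputable instance coarseGraded : GradedAlgebra (coarse 𝒜 f) :=
  GradedAlgebra.ofAlgHom (coarse 𝒜 f)
    ((toCoarse 𝒜 f).comp (DirectSum.decomposeAlgEquiv 𝒜 : R →ₐ[ℂ] ⨁ i, 𝒜 i))
    (by
      apply AlgHom.ext
      intro x
      induction x using DirectSum.Decomposition.inductionOn 𝒜 with
      | zero => simp
      | homogeneous a =>
        have h1 : ((toCoarse 𝒜 f).comp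
            (DirectSum.decomposeAlgEquiv 𝒜 : R →ₐ[ℂ] ⨁ i, 𝒜 i)) (a : R) =
            toCoarse 𝒜 f (DirectSum.decompose 𝒜 (a : R)) := rfl
        rw [AlgHom.comp_apply, h1, toCoarse_decompose 𝒜 f a.2]
        simp
      | add a b ha hb => rw [map_add, map_add, ha, hb])
    (by
      intro k x
      obtain ⟨x, hx⟩ := x
      have key : ∃ hy : x ∈ coarse 𝒜 f k,
          ((toCoarse 𝒜 f).comp (DirectSum.decomposeAlgEquiv 𝒜 : R →ₐ[ℂ] ⨁ i, 𝒜 i)) x =
          DirectSum.of (fun k => coarse 𝒜 f k) k ⟨x, hy⟩ := by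
        refine coarse_induction (P := fun y => ∃ hy : y ∈ coarse 𝒜 f k,
          ((toCoarse 𝒜 f).comp (DirectSum.decomposeAlgEquiv 𝒜 : R →ₐ[ℂ] ⨁ i, 𝒜 i)) y =
          DirectSum.of (fun k => coarse 𝒜 f k) k ⟨y, hy⟩) ?_ ?_ ?_ hx
        · refine ⟨Submodule.zero_mem _, ?_⟩
          rw [map_zero]
          exact (map_zero _).symm
        · rintro a b ⟨ha, ha'⟩ ⟨hb, hb'⟩
          refine ⟨Submodule.add_mem _ ha hb, ?_⟩
          rw [map_add, ha', hb', ← map_add]
          rfl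
        · intro i hi h hh
          subst hi
          exact ⟨le_coarse 𝒜 f i hh, toCoarse_decompose 𝒜 f hh⟩
      obtain ⟨_, h⟩ := key
      exact h)

end

end Vale.Agent.P280.T
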