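import Mathlib

/-!
# P280, torus case: definitions

`R = ⊕_{d, m} R_{d,m}` is the section ring `⊕_d H⁰(X, L^d)` of a projective manifold `X` with a
very ample, projectively normal, `T`-linearised line bundle `L`; `T` is a torus with character
group `M`, and `R_{d,m}` is the part of degree `d` and `T`-weight `m`.
-/

namespace Vale.Agent.P280.T

open MvPolynomial

section
variable {M : Type} [AddCommGroup M] [DecidableEq M]
variable {R : Type} [CommRing R] [Algebra ℂ R]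

/-- `p`, a point of the affine cone `Spec R`, is its vertex. -/
def IsVertex (𝒜 : ℕ × M → Submodule ℂ R) (p : R →ₐ[ℂ] ℂ) : Prop :=
  ∀ (d : ℕ) (m : M), 0 < d → ∀ h ∈ 𝒜 (d, m), p h = 0

/-- `v` is a tangent vector of `Spec R` at the point `p`. -/
def IsTangent (p : R →ₐ[ℂ] ℂ) (v : R →ₗ[ℂ] ℂ) : Prop :=
  ∀ a b : R, v (a * b) = p a * v b + p b * v a

/-- The point of `X` below `p` is fixed by the torus, which acts on the fibre of `L` at it by the
character `μ`. -/
def IsFixed (𝒜 : ℕ × M → Submodule ℂ R) (p : R →ₐ[ℂ] ℂ) (μ : M) : Prop :=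
  ∀ (d : ℕ) (m : M), ∀ h ∈ 𝒜 (d, m), p h ≠ 0 → m = d • μ

/-- The tangent vector `v` at a fixed point with character `μ` has weight `χ`. -/
def HasWeight (𝒜 : ℕ × M → Submodule ℂ R) (μ χ : M) (v : R →ₗ[ℂ] ℂ) : Prop :=
  ∀ (d : ℕ) (m : M), ∀ h ∈ 𝒜 (d, m), v h ≠ 0 → m = d • μ + χ

/-- `χ` is a weight of the torus on the tangent space `T_p X` of `X` at the fixed point `p`
(the tangent space of the cone modulo the Euler vector `h ↦ d · p h`). -/
def TangentWeight (𝒜 : ℕ × M → Submodule ℂ R) (p : R →ₐ[ℂ] ℂ) (μ χ : M) : Prop :=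
  ∃ v : R →ₗ[ℂ] ℂ, IsTangent p v ∧ HasWeight 𝒜 μ χ v ∧
    ∀ c : ℂ, ∃ (d : ℕ) (m : M), ∃ h ∈ 𝒜 (d, m), v h ≠ c * d * p h

/-- `p` and `q` lie over the same point of `X`. -/
def SamePoint (𝒜 : ℕ × M → Submodule ℂ R) (p q : R →ₐ[ℂ] ℂ) : Prop :=
  ∃ c : ℂ, c ≠ 0 ∧ ∀ (d : ℕ) (m : M), ∀ h ∈ 𝒜 (d, m), q h = c ^ d * p h

/-- `R` is the section ring of a projective manifold with torus action. -/
structure IsTorusManifold (𝒜 : ℕ × M → Submodule ℂ R) : Prop where
  /-- `R` is finitely generated. -/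
  finiteType : Algebra.FiniteType ℂ R
  /-- `R` is a domain. -/
  domain : IsDomain R
  /-- `R` is normal. -/
  normal : IsIntegrallyClosed R
  /-- `R_0 = ℂ`. -/
  zero : ∀ (m : M), ∀ h ∈ 𝒜 (0, m), ∃ c : ℂ, h = algebraMap ℂ R c
  /-- `R` is generated by its elements of degree one. -/
  gen : Algebra.adjoin ℂ {h : R | ∃ m : M, h ∈ 𝒜 (1, m)} = ⊤
  /-- `X` is nonempty. -/
  nonempty : ∃ p : R →ₐ[ℂ] ℂ, ¬ IsVertex 𝒜 p
  /-- `X` is smooth: the cone is regular away from its vertex. -/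
  smooth : ∀ p : R →ₐ[ℂ] ℂ, ¬ IsVertex 𝒜 p → ∀ (P : Ideal R) [P.IsPrime], P = RingHom.ker p →
    IsRegularLocalRing (Localization.AtPrime P)

/-- The tangent bundle of `X` is nef on rational curves: for each morphism `f : ℙ¹ → X`, given by
a graded homomorphism `φ : R → ℂ[s,t]` without base points, each tangent vector of the cone at each
point of the curve extends to a degree zero derivation `R → ℂ[s,t]` along `φ`; that is, the
pull-back of the extension `0 → O → E → T_X → 0` of class `c₁(L)` is generated by its global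
sections, which means that `f^* T_X` is nef. -/
def NefOnRationalCurves (𝒜 : ℕ × M → Submodule ℂ R) : Prop :=
  ∀ (e : ℕ) (φ : R →ₐ[ℂ] MvPolynomial (Fin 2) ℂ),
    (∀ (d : ℕ) (m : M), ∀ h ∈ 𝒜 (d, m), (φ h).IsHomogeneous (d * e)) →
    (∀ a : Fin 2 → ℂ, a ≠ 0 → ¬ IsVertex 𝒜 ((MvPolynomial.aeval a).comp φ)) →
    ∀ a : Fin 2 → ℂ, a ≠ 0 → ∀ v : R →ₗ[ℂ] ℂ, IsTangent ((MvPolynomial.aeval a).comp φ) v →
      ∃ δ : R →ₗ[ℂ] MvPolynomial (Fin 2) ℂ,
        (∀ x y : R, δ (x * y) = φ x * δ y + φ y * δ x) ∧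
        (∀ (d : ℕ) (m : M), ∀ h ∈ 𝒜 (d, m), (δ h).IsHomogeneous (d * e)) ∧
        ∀ h : R, MvPolynomial.aeval a (δ h) = v h

/-- `D` is a derivation of `R` of degree zero: a section of `E`, so (modulo the Euler derivation)
a vector field on `X`. -/
def IsField (𝒜 : ℕ × M → Submodule ℂ R) (D : Derivation ℂ R R) : Prop :=
  ∀ (d : ℕ) (m : M), ∀ h ∈ 𝒜 (d, m), D h ∈ ⨆ m' : M, 𝒜 (d, m')

/-- `T_X` is generated by its global sections, that is, `X` is homogeneous: at every non-vertex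
of the cone every tangent vector is the value of a derivation of degree zero. -/
def IsHomogeneousManifold (𝒜 : ℕ × M → Submodule ℂ R) : Prop :=
  ∀ p : R →ₐ[ℂ] ℂ, ¬ IsVertex 𝒜 p → ∀ v : R →ₗ[ℂ] ℂ, IsTangent p v →
    ∃ D : Derivation ℂ R R, IsField 𝒜 D ∧ ∀ h : R, p (D h) = v h

/-- The one-parameter group `l` has the isolated source `p` (a fixed point all of whose tangent
weights are positive for `l`), and the tangent weights at `p` are at most `a`. -/
def IsSource (𝒜 : ℕ × M → Submodule ℂ R) (l : M →+ ℤ) (p : R →ₐ[ℂ] ℂ) (μ : M) (a : ℤ) : Prop :=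
  ¬ IsVertex 𝒜 p ∧ IsFixed 𝒜 p μ ∧ ∀ χ : M, TangentWeight 𝒜 p μ χ → 0 < l χ ∧ l χ ≤ a

/-- `χ` is an extremal character: some one-parameter group `l` of the torus has an isolated
source at which all its weights are at most `l χ`. -/
def IsExtremal (𝒜 : ℕ × M → Submodule ℂ R) (χ : M) : Prop :=
  ∃ (l : M →+ ℤ) (p : R →ₐ[ℂ] ℂ) (μ : M), IsSource 𝒜 l p μ (l χ)

end

end Vale.Agent.P280.T
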